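import Mathlib
import Vale.Agent.P015.Discs

/-!
Paths of Gaussian primes with bounded steps cannot stay in a strip of bounded width for long.
-/

open Complex ComplexConjugate Vale.Agent.P015

namespace Vale.Agent.Results.P015.StraightPaths

/-- Core step: a path in a strip whose projection on the axis increases by a lot. -/
theorem core (D W : ℝ) : ∃ L : ℝ, ∀ (a u : ℂ), ‖u‖ = 1 → ∀ (n : ℕ) (f : ℕ → GaussianInt),
    (∀ i ≤ n, Prime (f i)) → (∀ i < n, dist (f i : ℂ) (f (i + 1)) ≤ D) →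
    (∀ i ≤ n, |(((f i : ℂ) - a) * conj u).im| ≤ W) →
    (((f n : ℂ) - a) * conj u).re - (((f 0 : ℂ) - a) * conj u).re ≤ L := by
  obtain ⟨R, hR⟩ := exists_nat_ge (|D| + |W| + 3)
  obtain ⟨L, hL0, hL⟩ := exists_free_uniform R
  refine ⟨L + 2, fun a u hu n f hp hstep hstrip => ?_⟩
  by_contra! hlt
  obtain ⟨s, hs⟩ : ∃ s : ℕ → ℝ, s = fun i => (((f i : ℂ) - a) * conj u).re := ⟨_, rfl⟩
  have hlt' : L + 2 < s n - s 0 := by rw [hs]; exact hlt
  have huu : u.re * u.re + u.im * u.im = 1 := by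
    rw [← Complex.normSq_apply, Complex.normSq_eq_norm_sq, hu, one_pow]
  obtain ⟨z, hz⟩ : ∃ z : ℂ, z = a + ((s 0 + 2 : ℝ) : ℂ) * u := ⟨_, rfl⟩
  obtain ⟨X, Y, h1, h2, h3, hfree⟩ := hL u hu z
  obtain ⟨c, hc⟩ : ∃ c : ℂ, c = ⟨X, Y⟩ := ⟨_, rfl⟩
  have hcre : ((c - a) * conj u).re = s 0 + 2 + ((X - z.re) * u.re + (Y - z.im) * u.im) := by
    simp only [hz, hc, mul_re, sub_re, sub_im, conj_re, conj_im, add_re, add_im, mul_im, ofReal_re,
      ofReal_im]
    linear_combination (s 0 + 2) * huu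
  have hcim : ((c - a) * conj u).im = (Y - z.im) * u.re - (X - z.re) * u.im := by
    simp only [hz, hc, mul_re, sub_re, sub_im, conj_re, conj_im, add_re, add_im, mul_im, ofReal_re,
      ofReal_im]
    ring
  obtain ⟨T, hT⟩ : ∃ T, T = ((c - a) * conj u).re := ⟨_, rfl⟩
  have hT0 : s 0 < T := by rw [hT, hcre]; linarith
  have hTn : T ≤ s n := by rw [hT, hcre]; linarith
  -- the first index past the centre
  classical
  have hex : ∃ i, T ≤ s i := ⟨n, hTn⟩
  have hin : Nat.find hex ≤ n := Nat.find_le hTn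
  have hge : T ≤ s (Nat.find hex) := Nat.find_spec hex
  obtain ⟨j, hj⟩ : ∃ j, Nat.find hex = j + 1 :=
    Nat.exists_eq_add_one_of_ne_zero fun h => not_le.2 hT0 (h ▸ hge)
  have hlow : s j < T := not_le.1 (Nat.find_min hex (by omega))
  rw [hj] at hin hge
  have hstep' : |s (j + 1) - s j| ≤ D := by
    refine le_trans ?_ (hstep j (by omega))
    rw [hs, dist_comm, dist_eq_norm, ← sub_re, ← sub_mul]
    refine (Complex.abs_re_le_norm _).trans (le_of_eq ?_)
    rw [norm_mul, Complex.norm_conj, hu, mul_one, sub_sub_sub_cancel_right]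
  obtain ⟨d, hd⟩ : ∃ d : ℂ, d = ((f (j + 1) : ℂ) - c) * conj u := ⟨_, rfl⟩
  have hdre : |d.re| ≤ |D| := by
    have e : d.re = s (j + 1) - T := by
      rw [hd, hT, hs, ← sub_re, ← sub_mul, sub_sub_sub_cancel_right]
    rw [e, abs_of_nonneg (by linarith)]
    linarith [(abs_le.1 hstep').2, le_abs_self D]
  have hdim : |d.im| ≤ |W| + 3 := by
    have e : d.im = (((f (j + 1) : ℂ) - a) * conj u).im - ((c - a) * conj u).im := by
      rw [hd, ← sub_im, ← sub_mul, sub_sub_sub_cancel_right]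
    rw [e]
    refine (abs_sub _ _).trans ?_
    have := hstrip (j + 1) hin
    rw [hcim]
    linarith [le_abs_self W]
  have hnorm : ‖(f (j + 1) : ℂ) - c‖ ≤ R := by
    have e : ‖d‖ = ‖(f (j + 1) : ℂ) - c‖ := by
      rw [hd, norm_mul, Complex.norm_conj, hu, mul_one]
    rw [← e]
    refine (Complex.norm_le_abs_re_add_abs_im d).trans ?_
    linarith
  have hx : |((f (j + 1)).re : ℝ) - X| ≤ R := by
    refine le_trans (le_of_eq ?_) ((Complex.abs_re_le_norm _).trans hnorm)
    simp [hc]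
  have hy : |((f (j + 1)).im : ℝ) - Y| ≤ R := by
    refine le_trans (le_of_eq ?_) ((Complex.abs_im_le_norm _).trans hnorm)
    simp [hc]
  refine hfree ((f (j + 1)).re - X, (f (j + 1)).im - Y) ?_ ?_
  · have hx' : |(f (j + 1)).re - X| ≤ (R : ℤ) := by exact_mod_cast hx
    have hy' : |(f (j + 1)).im - Y| ≤ (R : ℤ) := by exact_mod_cast hy
    simp only [box, Finset.mem_product, Finset.mem_Icc]
    exact ⟨abs_le.1 hx', abs_le.1 hy'⟩
  · have e : (⟨X + ((f (j + 1)).re - X), Y + ((f (j + 1)).im - Y)⟩ : GaussianInt) = f (j + 1) := by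
      ext <;> simp
    rw [e]
    exact hp (j + 1) hin

/-- For all `D` and `W` there is `L` such that every walk through Gaussian primes with steps at
most `D` which stays within distance `W` of some straight line, anywhere in the plane, has its
endpoints at distance at most `L`. -/
theorem result : ∀ D W : ℝ, ∃ L : ℝ, ∀ (a u : ℂ), ‖u‖ = 1 → ∀ (n : ℕ) (f : ℕ → GaussianInt),
    (∀ i ≤ n, Prime (f i)) → (∀ i < n, dist (f i : ℂ) (f (i + 1)) ≤ D) →
    (∀ i ≤ n, |(((f i : ℂ) - a) * conj u).im| ≤ W) →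
    dist (f 0 : ℂ) (f n) ≤ L := by
  intro D W
  obtain ⟨L, hL⟩ := core D W
  refine ⟨L + 2 * W, fun a u hu n f hp hstep hstrip => ?_⟩
  have h1 := hL a u hu n f hp hstep hstrip
  have h2 := hL a (-u) (by rw [norm_neg, hu]) n f hp hstep fun i hi => by
    rw [map_neg, mul_neg, neg_im, abs_neg]
    exact hstrip i hi
  rw [map_neg, mul_neg, mul_neg, neg_re, neg_re] at h2
  have e : dist (f 0 : ℂ) (f n) = ‖((f n : ℂ) - a) * conj u - ((f 0 : ℂ) - a) * conj u‖ := by
    rw [← sub_mul, sub_sub_sub_cancel_right, norm_mul, Complex.norm_conj, hu, mul_one, dist_comm,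
      dist_eq_norm]
  rw [e]
  refine (Complex.norm_le_abs_re_add_abs_im _).trans ?_
  rw [sub_re, sub_im]
  have h3 : |(((f n : ℂ) - a) * conj u).re - (((f 0 : ℂ) - a) * conj u).re| ≤ L :=
    abs_le.2 ⟨by linarith, h1⟩
  have h4 := abs_sub (((f n : ℂ) - a) * conj u).im (((f 0 : ℂ) - a) * conj u).im
  linarith [hstrip n le_rfl, hstrip 0 (Nat.zero_le n)]

end Vale.Agent.Results.P015.StraightPaths
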